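import Vale.Agent.P271.H553.Act
import Vale.Agent.P271.GLOB.Defs

/-! P271 (helper553): the Fourier projection along the `ℂ^*`-action (block A5 of GLOB-A). -/

open MeasureTheory Filter Topology Set
open scoped ENNReal NNReal ComplexConjugate

namespace Vale.Agent.P271.Avg

open Vale.Agent.P282.L2 Vale.Agent.P282.L2.Sheets

variable {n N : ℕ} {S : Sheets n N} {P e : ℕ}

theorem sigmaFinite_μ (S : Sheets n N) : SigmaFinite S.μ := by
  obtain ⟨F, hF, hFV, hU, hmono⟩ := S.isOpen.exists_iUnion_isClosed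
  refine ⟨⟨{ set := fun k => {q | q.1 ∈ F k ∩ Metric.closedBall 0 k} ∪ {q | q.1 ∉ S.V}
             set_mem := fun _ => trivial
             finite := fun k => ?_
             spanning := ?_ }⟩⟩
  · refine (measure_union_le _ _).trans_lt (ENNReal.add_lt_top.2 ⟨?_, ?_⟩)
    · exact μ_lt_top ((isCompact_closedBall _ _).inter_left (hF k))
        (inter_subset_left.trans (hFV k))
    · have h : S.μ {q | q.1 ∉ S.V} = 0 := by
        refine measure_mono_null ?_ (ae_iff.1 (ae_mem_M (S := S)))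
        intro q hq h
        exact hq h.1
      rw [h]
      exact ENNReal.zero_lt_top
  · refine eq_univ_of_forall fun q => ?_
    by_cases hq : q.1 ∈ S.V
    · rw [← hU] at hq
      obtain ⟨k, hk⟩ := mem_iUnion.1 hq
      obtain ⟨m, hm⟩ := exists_nat_ge ‖q.1‖
      refine mem_iUnion.2 ⟨max k m, Or.inl ⟨hmono (le_max_left k m) hk, ?_⟩⟩
      rw [mem_closedBall_zero_iff]
      exact hm.trans (by exact_mod_cast le_max_right k m)
    · exact mem_iUnion.2 ⟨0, Or.inr hq⟩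

/-- The component of degree `l` of `F` for the action. -/
noncomputable def proj (P e : ℕ) (l : ℤ) (F : (Fin n → ℂ) × ℂ → ℂ) (q : (Fin n → ℂ) × ℂ) : ℂ :=
  (2 * Real.pi * Complex.I)⁻¹ * ∮ t in C(0, 1), t ^ (-l - 1) * F (act P e t q)

theorem holo_proj {F : (Fin n → ℂ) × ℂ → ℂ} (hF : S.Holo F) (hI : Inv S P e) (l : ℤ) :
    S.Holo (proj P e l F) := by
  intro W s hs
  have h1 : DifferentiableOn ℂ (fun p : (Fin n → ℂ) × ℂ =>
      p.2 ^ (-l - 1) * F (act P e p.2 (p.1, s p.1))) (W ×ˢ {0}ᶜ) := by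
    rintro ⟨z, t⟩ ⟨hz, ht⟩
    have ht0 : t ≠ 0 := ht
    refine DifferentiableAt.differentiableWithinAt ?_
    refine DifferentiableAt.mul ?_ (differentiableAt_act hF hI hs hz ht0)
    exact DifferentiableAt.comp (g := fun t : ℂ => t ^ (-l - 1))
      (f := fun p : (Fin n → ℂ) × ℂ => p.2) (z, t) (differentiableAt_zpow.2 (Or.inl ht0))
      (by fun_prop)
  have h2 := P268.differentiableOn_circleIntegral (c := 0) (R := 1) zero_le_one hs.isOpen
    isOpen_compl_singleton (fun t ht => by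
      rintro rfl
      simp at ht) h1
  exact h2.const_mul _

theorem circle_rotate {g : ℂ → ℂ} (τ : ℂ) :
    (∮ t in C(0, 1), g (t * τ) * τ) = ∮ t in C(0, ‖τ‖), g t := by
  have hc : ∀ θ : ℝ, circleMap 0 1 θ * τ = circleMap 0 ‖τ‖ (θ + Complex.arg τ) := by
    intro θ
    simp only [circleMap, zero_add, Complex.ofReal_one, one_mul]
    conv_lhs => rw [← Complex.norm_mul_exp_arg_mul_I τ]
    push_cast
    rw [add_mul, Complex.exp_add]
    ring
  rw [circleIntegral, circleIntegral]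
  have h1 : ∀ θ : ℝ, deriv (circleMap 0 1) θ • (g (circleMap 0 1 θ * τ) * τ) =
      (fun θ => deriv (circleMap 0 ‖τ‖) θ • g (circleMap 0 ‖τ‖ θ)) (θ + Complex.arg τ) := by
    intro θ
    simp only [deriv_circleMap, smul_eq_mul]
    rw [← hc θ]
    ring
  simp only [h1]
  rw [intervalIntegral.integral_comp_add_right
    (fun θ => deriv (circleMap 0 ‖τ‖) θ • g (circleMap 0 ‖τ‖ θ))]
  have hp : Function.Periodic (fun θ : ℝ => deriv (circleMap 0 ‖τ‖) θ • g (circleMap 0 ‖τ‖ θ))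
      (2 * Real.pi) := by
    intro θ
    simp only [deriv_circleMap]
    rw [periodic_circleMap 0 ‖τ‖ θ]
  have h2 := hp.intervalIntegral_add_eq (0 + Complex.arg τ) 0
  rw [zero_add] at h2 ⊢
  rw [add_comm (2 * Real.pi)]
  rw [h2, zero_add]

theorem proj_hom {F : (Fin n → ℂ) × ℂ → ℂ} (hF : S.Holo F) (hI : Inv S P e) (l : ℤ) {τ : ℂ}
    (hτ : τ ≠ 0) {q : (Fin n → ℂ) × ℂ} (hq : q ∈ S.M) :
    proj P e l F (act P e τ q) = τ ^ l * proj P e l F q := by
  set g : ℂ → ℂ := fun t => t ^ (-l - 1) * F (act P e t q) with hg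
  have hd : ∀ t : ℂ, t ≠ 0 → DifferentiableAt ℂ g t := fun t ht =>
    (differentiableAt_zpow.2 (Or.inl ht)).mul (differentiableAt_orbit hF hI hq ht)
  have hann : ∀ r R : ℝ, 0 < r → r ≤ R → (∮ t in C(0, R), g t) = ∮ t in C(0, r), g t := by
    intro r R hr hrR
    refine Complex.circleIntegral_eq_of_differentiable_on_annulus_off_countable hr hrR
      countable_empty ?_ ?_
    · intro t ht
      have : t ≠ 0 := by
        rintro rfl
        exact ht.2 (Metric.mem_ball_self hr)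
      exact (hd t this).continuousAt.continuousWithinAt
    · intro t ht
      refine hd t ?_
      rintro rfl
      exact ht.1.2 (Metric.mem_closedBall_self hr.le)
  have h1 : (∮ t in C(0, 1), t ^ (-l - 1) * F (act P e t (act P e τ q))) =
      τ ^ l * ∮ t in C(0, 1), g (t * τ) * τ := by
    rw [← circleIntegral.integral_const_mul]
    refine circleIntegral.integral_congr zero_le_one fun t ht => ?_
    have ht0 : t ≠ 0 := by
      rintro rfl
      simp at ht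
    show t ^ (-l - 1) * F (act P e t (act P e τ q)) = τ ^ l * (g (t * τ) * τ)
    rw [hg]
    show _ = τ ^ l * ((t * τ) ^ (-l - 1) * F (act P e (t * τ) q) * τ)
    rw [← act_mul, mul_zpow]
    have h2 : τ ^ l * τ ^ (-l - 1) * τ = 1 := by
      rw [← zpow_add₀ hτ, ← zpow_add_one₀ hτ, show l + (-l - 1) + 1 = 0 by ring, zpow_zero]
    calc t ^ (-l - 1) * F (act P e (t * τ) q)
        = (τ ^ l * τ ^ (-l - 1) * τ) * (t ^ (-l - 1) * F (act P e (t * τ) q)) := by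
          rw [h2, one_mul]
      _ = _ := by ring
  have h3 : (∮ t in C(0, ‖τ‖), g t) = ∮ t in C(0, 1), g t := by
    have hτ' : 0 < ‖τ‖ := norm_pos_iff.2 hτ
    rcases le_total 1 ‖τ‖ with h | h
    · exact hann 1 _ one_pos h
    · exact (hann _ 1 hτ' h).symm
  unfold proj
  rw [h1, circle_rotate, h3]
  ring

theorem circleIntegrable_aux {X : (Fin n → ℂ) × ℂ → ℂ} (hX : S.CD 0 X) (hI : Inv S P e) (l : ℤ)
    {q : (Fin n → ℂ) × ℂ} (hq : q ∈ S.M) :
    CircleIntegrable (fun t => t ^ (-l - 1) * X (act P e t q)) 0 1 := by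
  refine ContinuousOn.circleIntegrable zero_le_one ?_
  have h0 : ∀ t ∈ Metric.sphere (0 : ℂ) 1, t ≠ 0 := by
    rintro t ht rfl
    simp at ht
  refine ContinuousOn.mul ?_ ((continuousOn_orbit hX hI hq).mono fun t ht => h0 t ht)
  intro t ht
  exact (continuousAt_zpow₀ t _ (Or.inl (h0 t ht))).continuousWithinAt

theorem proj_sub {X Y : (Fin n → ℂ) × ℂ → ℂ} (hX : S.CD 0 X) (hY : S.CD 0 Y) (hI : Inv S P e)
    (l : ℤ) {q : (Fin n → ℂ) × ℂ} (hq : q ∈ S.M) :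
    proj P e l (fun q => X q - Y q) q = proj P e l X q - proj P e l Y q := by
  unfold proj
  rw [← mul_sub, ← circleIntegral.integral_sub (circleIntegrable_aux hX hI l hq)
    (circleIntegrable_aux hY hI l hq)]
  simp only [mul_sub]

theorem proj_eq {X : (Fin n → ℂ) × ℂ → ℂ} (l : ℤ) {q : (Fin n → ℂ) × ℂ}
    (h : ∀ t : ℂ, ‖t‖ = 1 → X (act P e t q) = t ^ l * X q) : proj P e l X q = X q := by
  unfold proj
  have h1 : (∮ t in C(0, 1), t ^ (-l - 1) * X (act P e t q)) = ∮ t in C(0, 1), (t - 0)⁻¹ * X q := by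
    refine circleIntegral.integral_congr zero_le_one fun t ht => ?_
    have ht1 : ‖t‖ = 1 := by simpa using ht
    have ht0 : t ≠ 0 := by
      rintro rfl
      simp at ht1
    show t ^ (-l - 1) * X (act P e t q) = (t - 0)⁻¹ * X q
    rw [h t ht1, ← mul_assoc, ← zpow_add₀ ht0, sub_zero]
    congr 1
    rw [show -l - 1 + l = -1 by ring, zpow_neg_one]
  rw [h1]
  have h2 : (∮ t in C(0, 1), (t - 0 : ℂ)⁻¹ * X q) = (∮ t in C(0, 1), (t - 0 : ℂ)⁻¹) * X q := by
    have := circleIntegral.integral_const_mul (X q) (fun t : ℂ => (t - 0)⁻¹) 0 1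
    rw [mul_comm, ← this]
    refine circleIntegral.integral_congr zero_le_one fun t ht => mul_comm _ _
  rw [h2, circleIntegral.integral_sub_center_inv 0 one_ne_zero, ← mul_assoc, inv_mul_cancel₀,
    one_mul]
  exact Complex.two_pi_I_ne_zero

theorem sq_lintegral_le {α : Type*} [MeasurableSpace α] (μ : Measure α) {f : α → ℝ≥0∞}
    (hf : AEMeasurable f μ) : (∫⁻ a, f a ∂μ) ^ 2 ≤ μ univ * ∫⁻ a, f a ^ 2 ∂μ := by
  have h := ENNReal.lintegral_mul_le_Lp_mul_Lq μ (p := 2) (q := 2)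
    (Real.HolderConjugate.two_two) hf (aemeasurable_const (b := (1 : ℝ≥0∞)))
  simp only [Pi.mul_apply, mul_one, ENNReal.one_rpow, lintegral_const, one_mul] at h
  calc (∫⁻ a, f a ∂μ) ^ 2 ≤ ((∫⁻ a, f a ^ (2 : ℝ) ∂μ) ^ (1 / 2 : ℝ) * (μ univ) ^ (1 / 2 : ℝ)) ^ 2 := by
        gcongr
    _ = μ univ * ∫⁻ a, f a ^ 2 ∂μ := by
        rw [mul_pow, ← ENNReal.rpow_natCast, ← ENNReal.rpow_natCast, ← ENNReal.rpow_mul,
          ← ENNReal.rpow_mul]
        norm_num
        rw [mul_comm]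

/-- The pointwise bound. -/
theorem proj_bound {X : (Fin n → ℂ) × ℂ → ℂ} (hX : S.CD 0 X) (hI : Inv S P e) (l : ℤ)
    {q : (Fin n → ℂ) × ℂ} (hq : q ∈ S.M) :
    ‖proj P e l X q‖ₑ ^ 2 ≤ (ENNReal.ofReal (2 * Real.pi))⁻¹ *
      ∫⁻ θ in Ioc (0 : ℝ) (2 * Real.pi), ‖X (act P e (circleMap 0 1 θ) q)‖ₑ ^ 2 := by
  have hpi : (0 : ℝ) < 2 * Real.pi := by positivity
  have hcont : Continuous fun θ : ℝ => X (act P e (circleMap 0 1 θ) q) := by
    refine (continuousOn_orbit hX hI hq).comp_continuous (continuous_circleMap 0 1) fun θ => ?_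
    exact circleMap_ne_center one_ne_zero
  have h1 : ‖∮ t in C(0, 1), t ^ (-l - 1) * X (act P e t q)‖ₑ ≤
      ∫⁻ θ in Ioc (0 : ℝ) (2 * Real.pi), ‖X (act P e (circleMap 0 1 θ) q)‖ₑ := by
    rw [circleIntegral, intervalIntegral.integral_of_le hpi.le]
    refine (enorm_integral_le_lintegral_enorm _).trans (lintegral_mono fun θ => ?_)
    refine enorm_le_iff_norm_le.2 ?_
    rw [deriv_circleMap, smul_eq_mul, norm_mul, norm_mul, norm_mul, norm_zpow]
    simp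
  have h2 : (∫⁻ θ in Ioc (0 : ℝ) (2 * Real.pi), ‖X (act P e (circleMap 0 1 θ) q)‖ₑ) ^ 2 ≤
      ENNReal.ofReal (2 * Real.pi) *
      ∫⁻ θ in Ioc (0 : ℝ) (2 * Real.pi), ‖X (act P e (circleMap 0 1 θ) q)‖ₑ ^ 2 := by
    have h := sq_lintegral_le (volume.restrict (Ioc (0 : ℝ) (2 * Real.pi)))
      (f := fun θ => ‖X (act P e (circleMap 0 1 θ) q)‖ₑ) hcont.enorm.measurable.aemeasurable
    rwa [Measure.restrict_apply_univ, Real.volume_Ioc, sub_zero] at h
  unfold proj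
  rw [enorm_mul, mul_pow]
  have h3 : ‖(2 * Real.pi * Complex.I : ℂ)⁻¹‖ₑ = (ENNReal.ofReal (2 * Real.pi))⁻¹ := by
    rw [← ofReal_norm, norm_inv, ENNReal.ofReal_inv_of_pos]
    · congr 2
      simp [abs_of_pos Real.pi_pos]
    · simp [Real.pi_pos.ne']
  have h0 : ENNReal.ofReal (2 * Real.pi) ≠ 0 := by
    simpa using Real.pi_pos
  rw [h3]
  calc (ENNReal.ofReal (2 * Real.pi))⁻¹ ^ 2 *
        ‖∮ t in C(0, 1), t ^ (-l - 1) * X (act P e t q)‖ₑ ^ 2
      ≤ (ENNReal.ofReal (2 * Real.pi))⁻¹ ^ 2 * (ENNReal.ofReal (2 * Real.pi) *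
        ∫⁻ θ in Ioc (0 : ℝ) (2 * Real.pi), ‖X (act P e (circleMap 0 1 θ) q)‖ₑ ^ 2) := by
        gcongr
        exact (pow_le_pow_left₀ zero_le h1 2).trans h2
    _ = _ := by
        rw [sq, mul_assoc, ← mul_assoc _ (ENNReal.ofReal (2 * Real.pi)),
          ENNReal.inv_mul_cancel h0 ENNReal.ofReal_ne_top, one_mul]

/-- **The `L²` contraction.** -/
theorem lintegral_proj_le {X : (Fin n → ℂ) × ℂ → ℂ} (hX : S.CD 0 X) (hI : Inv S P e) (l : ℤ)
    {Ψ : (Fin n → ℂ) × ℂ → ℝ≥0∞} (hΨ : AEMeasurable Ψ S.μ)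
    (hinv : ∀ t : ℂ, ‖t‖ = 1 → ∀ q ∈ S.M, Ψ (act P e t q) = Ψ q) :
    ∫⁻ q, ‖proj P e l X q‖ₑ ^ 2 * Ψ q ∂S.μ ≤ ∫⁻ q, ‖X q‖ₑ ^ 2 * Ψ q ∂S.μ := by
  have hpi : (0 : ℝ) < 2 * Real.pi := by positivity
  have h0 : ENNReal.ofReal (2 * Real.pi) ≠ 0 := by
    simpa using Real.pi_pos
  have : SigmaFinite S.μ := sigmaFinite_μ S
  classical
  set X' : (Fin n → ℂ) × ℂ → ℂ := S.M.indicator X with hX'
  have hX'm : Measurable X' := by
    rw [hX', ← piecewise_eq_indicator]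
    exact (continuousOn_M hX).measurable_piecewise continuousOn_const measurableSet_M
  have hX'e : ∀ q ∈ S.M, X' q = X q := fun q hq => indicator_of_mem hq X
  have hcm : ∀ θ : ℝ, ‖circleMap 0 1 θ‖ = 1 := fun θ => by simp
  have hcm0 : ∀ θ : ℝ, circleMap 0 1 θ ≠ 0 := fun θ => circleMap_ne_center one_ne_zero
  calc ∫⁻ q, ‖proj P e l X q‖ₑ ^ 2 * Ψ q ∂S.μ
      ≤ ∫⁻ q, (ENNReal.ofReal (2 * Real.pi))⁻¹ * (∫⁻ θ in Ioc (0 : ℝ) (2 * Real.pi),
          ‖X' (act P e (circleMap 0 1 θ) q)‖ₑ ^ 2 * Ψ q) ∂S.μ := by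
        refine lintegral_mono_ae ?_
        filter_upwards [ae_mem_M (S := S)] with q hq
        have h1 := proj_bound hX hI l hq
        have hm : Measurable fun θ : ℝ => ‖X' (act P e (circleMap 0 1 θ) q)‖ₑ ^ 2 := by
          refine Measurable.pow_const (Measurable.enorm (hX'm.comp ?_)) 2
          exact (continuous_act.comp ((continuous_circleMap 0 1).prodMk
            continuous_const)).measurable
        rw [lintegral_mul_const _ hm, ← mul_assoc]
        gcongr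
        refine h1.trans (le_of_eq ?_)
        congr 1
        refine lintegral_congr fun θ => ?_
        rw [hX'e _ (hI _ (hcm0 θ) q hq)]
    _ = (ENNReal.ofReal (2 * Real.pi))⁻¹ * ∫⁻ q, (∫⁻ θ in Ioc (0 : ℝ) (2 * Real.pi),
          ‖X' (act P e (circleMap 0 1 θ) q)‖ₑ ^ 2 * Ψ q) ∂S.μ := by
        rw [lintegral_const_mul']
        exact ENNReal.inv_ne_top.2 h0
    _ = (ENNReal.ofReal (2 * Real.pi))⁻¹ * ∫⁻ θ in Ioc (0 : ℝ) (2 * Real.pi), ∫⁻ q,
          ‖X' (act P e (circleMap 0 1 θ) q)‖ₑ ^ 2 * Ψ q ∂S.μ := by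
        rw [lintegral_lintegral_swap]
        refine AEMeasurable.mul ?_ hΨ.comp_fst
        refine Measurable.aemeasurable (Measurable.pow_const (Measurable.enorm (hX'm.comp ?_)) 2)
        exact (continuous_act.comp (((continuous_circleMap 0 1).comp continuous_snd).prodMk
            continuous_fst)).measurable
    _ = (ENNReal.ofReal (2 * Real.pi))⁻¹ * ∫⁻ _θ in Ioc (0 : ℝ) (2 * Real.pi), ∫⁻ q,
          ‖X q‖ₑ ^ 2 * Ψ q ∂S.μ := by
        congr 1
        refine lintegral_congr fun θ => ?_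
        have h2 := lintegral_act_unit hI (hcm θ) (fun q => ‖X' q‖ₑ ^ 2 * Ψ q)
        have h3 : ∫⁻ q, ‖X q‖ₑ ^ 2 * Ψ q ∂S.μ = ∫⁻ q, ‖X' q‖ₑ ^ 2 * Ψ q ∂S.μ := by
          refine lintegral_congr_ae ?_
          filter_upwards [ae_mem_M (S := S)] with q hq
          rw [hX'e q hq]
        rw [h3, ← h2]
        refine lintegral_congr_ae ?_
        filter_upwards [ae_mem_M (S := S)] with q hq
        show _ = ‖X' (act P e (circleMap 0 1 θ) q)‖ₑ ^ 2 * Ψ (act P e (circleMap 0 1 θ) q)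
        rw [hinv _ (hcm θ) q hq]
    _ = ∫⁻ q, ‖X q‖ₑ ^ 2 * Ψ q ∂S.μ := by
        rw [lintegral_const, Measure.restrict_apply_univ, Real.volume_Ioc, sub_zero,
          mul_comm (∫⁻ q, ‖X q‖ₑ ^ 2 * Ψ q ∂S.μ), ← mul_assoc,
          ENNReal.inv_mul_cancel h0 ENNReal.ofReal_ne_top, one_mul]

/-- **(A5)** The Fourier projection. -/
theorem avg (hM : ∀ t : ℂ, t ≠ 0 → ∀ q ∈ S.M, Glob.act P e t q ∈ S.M)
    {F : (Fin n → ℂ) × ℂ → ℂ} (hF : S.Holo F) (l : ℤ) :
    ∃ Fl : (Fin n → ℂ) × ℂ → ℂ, S.Holo Fl ∧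
      (∀ t : ℂ, t ≠ 0 → ∀ q ∈ S.M, Fl (Glob.act P e t q) = t ^ l * Fl q) ∧
      ∀ η : (Fin n → ℂ) × ℂ → ℂ, S.CD 0 η →
        (∀ t : ℂ, ‖t‖ = 1 → ∀ q ∈ S.M, η (Glob.act P e t q) = t ^ l * η q) →
      ∀ A : Set ((Fin n → ℂ) × ℂ), NullMeasurableSet A S.μ →
        (∀ t : ℂ, ‖t‖ = 1 → ∀ q ∈ S.M, (Glob.act P e t q ∈ A ↔ q ∈ A)) →
      ∀ W : (Fin n → ℂ) × ℂ → ℝ≥0∞, AEMeasurable W S.μ →
        (∀ t : ℂ, ‖t‖ = 1 → ∀ q ∈ S.M, W (Glob.act P e t q) = W q) →
        ∫⁻ q in A, ENNReal.ofReal (‖Fl q - η q‖ ^ 2) * W q ∂S.μ ≤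
          ∫⁻ q in A, ENNReal.ofReal (‖F q - η q‖ ^ 2) * W q ∂S.μ := by
  have hI : Inv S P e := hM
  refine ⟨proj P e l F, holo_proj hF hI l, fun t ht q hq => proj_hom hF hI l ht hq,
    fun η hη hηh A hA hAi W hW hWi => ?_⟩
  have hFc : S.CD 0 F := hF.CD 0
  have hX : S.CD 0 (fun q => F q - η q) := fun U s hs => (hFc U s hs).sub (hη U s hs)
  have key := lintegral_proj_le hX hI l (Ψ := A.indicator W) (hW.indicator₀ hA) (by
    intro t ht q hq
    by_cases hqA : q ∈ A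
    · rw [indicator_of_mem hqA, indicator_of_mem (show act P e t q ∈ A from (hAi t ht q hq).2 hqA)]
      exact hWi t ht q hq
    · rw [indicator_of_notMem hqA, indicator_of_notMem
        (show act P e t q ∉ A from fun h => hqA ((hAi t ht q hq).1 h))])
  have e1 : ∀ x : ℂ, ENNReal.ofReal (‖x‖ ^ 2) = ‖x‖ₑ ^ 2 := by
    intro x
    rw [ENNReal.ofReal_pow (norm_nonneg _), ofReal_norm]
  have e2 : ∀ (Y : (Fin n → ℂ) × ℂ → ℂ), ∫⁻ q in A, ENNReal.ofReal (‖Y q‖ ^ 2) * W q ∂S.μ =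
      ∫⁻ q, ‖Y q‖ₑ ^ 2 * A.indicator W q ∂S.μ := by
    intro Y
    rw [← lintegral_indicator₀ hA]
    refine lintegral_congr fun q => ?_
    by_cases hqA : q ∈ A
    · rw [indicator_of_mem hqA, indicator_of_mem hqA, e1]
    · rw [indicator_of_notMem hqA, indicator_of_notMem hqA, mul_zero]
  rw [e2 (fun q => proj P e l F q - η q), e2 (fun q => F q - η q)]
  refine le_trans (le_of_eq ?_) key
  refine lintegral_congr_ae ?_
  filter_upwards [ae_mem_M (S := S)] with q hq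
  rw [proj_sub hFc hη hI l hq, proj_eq l fun t ht => hηh t ht q hq]

end Vale.Agent.P271.Avg
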