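import Vale.Agent.P282.Bd3.B1
import Vale.Agent.P271.H408.Mean

/-! P271 (helper553): the `ℂ^*`-action on sheets and the scaling of the measure. -/

open MeasureTheory Filter Topology Set
open scoped ENNReal NNReal ComplexConjugate

namespace Vale.Agent.P271.Avg

open Vale.Agent.P282.L2 Vale.Agent.P282.L2.Sheets

variable {n N : ℕ} {S : Sheets n N} {P e : ℕ}

/-- The action `t · (z, w) = (t ^ P z, t ^ e w)`. -/
def act (P e : ℕ) (t : ℂ) (q : (Fin n → ℂ) × ℂ) : (Fin n → ℂ) × ℂ := (t ^ P • q.1, t ^ e * q.2)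

theorem act_mul (s t : ℂ) (q : (Fin n → ℂ) × ℂ) :
    act P e (s * t) q = act P e s (act P e t q) := by
  simp [act, mul_pow, mul_smul, mul_assoc]

theorem act_one (q : (Fin n → ℂ) × ℂ) : act P e 1 q = q := by simp [act]

theorem act_inv {t : ℂ} (ht : t ≠ 0) (q : (Fin n → ℂ) × ℂ) :
    act P e t (act P e t⁻¹ q) = q := by
  rw [← act_mul, mul_inv_cancel₀ ht, act_one]

theorem act_inv' {t : ℂ} (ht : t ≠ 0) (q : (Fin n → ℂ) × ℂ) :
    act P e t⁻¹ (act P e t q) = q := by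
  rw [← act_mul, inv_mul_cancel₀ ht, act_one]

theorem continuous_act : Continuous fun p : ℂ × ((Fin n → ℂ) × ℂ) => act P e p.1 p.2 := by
  unfold act
  fun_prop

theorem continuous_act_left (t : ℂ) : Continuous (act (n := n) P e t) := by
  unfold act
  fun_prop

/-- `act t` as a homeomorphism of the ambient space. -/
noncomputable def actHomeo (P e : ℕ) {t : ℂ} (ht : t ≠ 0) : ((Fin n → ℂ) × ℂ) ≃ₜ ((Fin n → ℂ) × ℂ) where
  toFun := act P e t
  invFun := act P e t⁻¹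
  left_inv := act_inv' ht
  right_inv := act_inv ht
  continuous_toFun := continuous_act_left t
  continuous_invFun := continuous_act_left t⁻¹

theorem measurableEmbedding_act {t : ℂ} (ht : t ≠ 0) :
    MeasurableEmbedding (act (n := n) P e t) := (actHomeo P e ht).measurableEmbedding

/-- `M` is invariant under the action. -/
def Inv (S : Sheets n N) (P e : ℕ) : Prop := ∀ t : ℂ, t ≠ 0 → ∀ q ∈ S.M, act P e t q ∈ S.M

theorem Inv.mem_iff (hI : Inv S P e) {t : ℂ} (ht : t ≠ 0) {q : (Fin n → ℂ) × ℂ} :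
    act P e t q ∈ S.M ↔ q ∈ S.M := by
  refine ⟨fun h => ?_, hI t ht q⟩
  have h1 := hI t⁻¹ (inv_ne_zero ht) _ h
  rwa [act_inv' ht] at h1

theorem nonempty_fib (hN : N ≠ 0) {z : Fin n → ℂ} (hz : z ∈ S.V) : ∃ w, w ∈ S.fib z := by
  have h : 0 < (S.fib z).card := by
    rw [card_fib hz]
    omega
  exact (Finset.card_pos.1 h)

theorem Inv.V (hI : Inv S P e) (hN : N ≠ 0) {t : ℂ} (ht : t ≠ 0) {z : Fin n → ℂ} (hz : z ∈ S.V) :
    t ^ P • z ∈ S.V := by
  obtain ⟨w, hw⟩ := nonempty_fib hN hz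
  exact (hI t ht (z, w) ⟨hz, hw⟩).1

theorem Inv.V_iff (hI : Inv S P e) (hN : N ≠ 0) {t : ℂ} (ht : t ≠ 0) {z : Fin n → ℂ} :
    t ^ P • z ∈ S.V ↔ z ∈ S.V := by
  refine ⟨fun h => ?_, hI.V hN ht⟩
  have h1 := hI.V hN (inv_ne_zero ht) h
  rwa [smul_smul, ← mul_pow, inv_mul_cancel₀ ht, one_pow, one_smul] at h1

theorem Inv.sum_fib (hI : Inv S P e) (hN : N ≠ 0) {t : ℂ} (ht : t ≠ 0) {z : Fin n → ℂ}
    (hz : z ∈ S.V) {G : Type*} [AddCommMonoid G] (f : (Fin n → ℂ) × ℂ → G) :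
    ∑ w ∈ S.fib z, f (act P e t (z, w)) = ∑ w ∈ S.fib (t ^ P • z), f (t ^ P • z, w) := by
  have hV : t ^ P • z ∈ S.V := hI.V hN ht hz
  have hte : t ^ e ≠ 0 := pow_ne_zero _ ht
  refine Finset.sum_bij (fun w _ => t ^ e * w) (fun w hw => (hI t ht (z, w) ⟨hz, hw⟩).2)
    (fun w _ w' _ h => mul_left_cancel₀ hte h) (fun w hw => ?_) (fun w _ => rfl)
  have h1 := hI t⁻¹ (inv_ne_zero ht) (t ^ P • z, w) ⟨hV, hw⟩
  have h2 : act P e t⁻¹ (t ^ P • z, w) = (z, t⁻¹ ^ e * w) := by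
    unfold act
    rw [smul_smul, ← mul_pow, inv_mul_cancel₀ ht, one_pow, one_smul]
  rw [h2] at h1
  refine ⟨t⁻¹ ^ e * w, h1.2, ?_⟩
  rw [← mul_assoc, ← mul_pow, mul_inv_cancel₀ ht, one_pow, one_mul]

theorem M_empty (S : Sheets n 0) : S.M = ∅ := by
  ext q
  simp only [mem_empty_iff_false, iff_false]
  rintro ⟨h1, h2⟩
  have h3 : S.fib q.1 = ∅ := Finset.card_eq_zero.1 (card_fib h1)
  rw [h3] at h2
  exact absurd h2 (Finset.notMem_empty _)

theorem μ_zero (S : Sheets n 0) : S.μ = 0 := by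
  have h := ae_mem_M (S := S)
  rw [M_empty] at h
  rw [← Measure.measure_univ_eq_zero]
  have h2 : S.μ {q | ¬ q ∈ (∅ : Set ((Fin n → ℂ) × ℂ))} = 0 := h
  simpa using h2

/-- Lebesgue measure of `ℂⁿ` under a complex homothety. -/
theorem lintegral_smul {c : ℂ} (hc : c ≠ 0) (g : (Fin n → ℂ) → ℝ≥0∞) :
    ∫⁻ z, g (c • z) = ENNReal.ofReal ((‖c‖ ^ (2 * n))⁻¹) * ∫⁻ z, g z := by
  have hc' : (‖c‖ : ℝ) ≠ 0 := norm_ne_zero_iff.2 hc
  have hr : (‖c‖ : ℂ) ≠ 0 := by exact_mod_cast hc'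
  have hu : ‖c / ‖c‖‖ = 1 := by
    rw [norm_div, Complex.norm_real, norm_norm, div_self hc']
  have h1 : ∀ z : Fin n → ℂ, c • z = (‖c‖ : ℝ) • ((c / ‖c‖) • z) := by
    intro z
    ext i
    simp only [Pi.smul_apply, smul_eq_mul, Complex.real_smul]
    field_simp
  have h2 : ∫⁻ z, g (c • z) = ∫⁻ z, g ((‖c‖ : ℝ) • z) := by
    rw [← H408.lintegral_unit (c / ‖c‖) hu (fun z => g ((‖c‖ : ℝ) • z))]
    exact lintegral_congr fun z => by rw [h1 z]
  rw [h2]
  have h3 : MeasurableEmbedding (fun z : Fin n → ℂ => (‖c‖ : ℝ) • z) :=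
    (Homeomorph.smulOfNeZero (‖c‖ : ℝ) hc').measurableEmbedding
  rw [← h3.lintegral_map, Measure.map_addHaar_smul volume hc', lintegral_smul_measure]
  congr 2
  have h4 : Module.finrank ℝ (Fin n → ℂ) = 2 * n := by
    rw [Module.finrank_pi_fintype]
    simp [Complex.finrank_real_complex, mul_comm]
  rw [h4, abs_of_nonneg (by positivity)]

/-- **Scaling of the measure.** -/
theorem lintegral_act (hI : Inv S P e) {t : ℂ} (ht : t ≠ 0) (Ψ : (Fin n → ℂ) × ℂ → ℝ≥0∞) :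
    ∫⁻ q, Ψ (act P e t q) ∂S.μ = ENNReal.ofReal ((‖t‖ ^ (2 * n * P))⁻¹) * ∫⁻ q, Ψ q ∂S.μ := by
  by_cases hN : N = 0
  · subst hN
    rw [μ_zero]
    simp
  suffices h : S.μ.map (act P e t) = ENNReal.ofReal ((‖t‖ ^ (2 * n * P))⁻¹) • S.μ by
    rw [← (measurableEmbedding_act ht).lintegral_map, h, lintegral_smul_measure]
    rfl
  refine Measure.ext fun A hA => ?_
  have key : ∀ Φ : (Fin n → ℂ) × ℂ → ℝ≥0∞, Measurable Φ →
      ∫⁻ q, Φ (act P e t q) ∂S.μ = ENNReal.ofReal ((‖t‖ ^ (2 * n * P))⁻¹) * ∫⁻ q, Φ q ∂S.μ := by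
    intro Φ hΦ
    have hm : Measurable fun q => Φ (act P e t q) :=
      hΦ.comp (continuous_act_left t).measurable
    rw [lintegral_μ hm, lintegral_μ hΦ]
    have hV := S.isOpen.measurableSet
    set g : (Fin n → ℂ) → ℝ≥0∞ := S.V.indicator fun z => ∑ w ∈ S.fib z, Φ (z, w) with hg
    have h1 : ∫⁻ z in S.V, ∑ w ∈ S.fib z, Φ (z, w) = ∫⁻ z, g z := by
      rw [hg, lintegral_indicator hV]
    have h2 : ∫⁻ z in S.V, ∑ w ∈ S.fib z, Φ (act P e t (z, w)) = ∫⁻ z, g (t ^ P • z) := by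
      rw [← lintegral_indicator hV]
      refine lintegral_congr fun z => ?_
      by_cases hz : z ∈ S.V
      · rw [indicator_of_mem hz, hg, indicator_of_mem (hI.V hN ht hz)]
        exact hI.sum_fib hN ht hz Φ
      · rw [indicator_of_notMem hz, hg, indicator_of_notMem]
        exact fun h => hz ((hI.V_iff hN ht).1 h)
    rw [h1, h2, lintegral_smul (pow_ne_zero _ ht), norm_pow, ← pow_mul]
    congr 4
    ring
  have h1 := key (A.indicator 1) (measurable_one.indicator hA)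
  rw [lintegral_indicator_one hA] at h1
  rw [Measure.map_apply (continuous_act_left t).measurable hA, Measure.smul_apply, smul_eq_mul,
    ← h1, ← lintegral_indicator_one ((continuous_act_left t).measurable hA)]
  rfl

theorem map_act (hI : Inv S P e) {t : ℂ} (ht : t ≠ 0) :
    S.μ.map (act P e t) = ENNReal.ofReal ((‖t‖ ^ (2 * n * P))⁻¹) • S.μ := by
  refine Measure.ext fun A hA => ?_
  have h1 := lintegral_act hI ht (A.indicator 1)
  rw [lintegral_indicator_one hA] at h1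
  rw [Measure.map_apply (continuous_act_left t).measurable hA, Measure.smul_apply, smul_eq_mul,
    ← h1, ← lintegral_indicator_one ((continuous_act_left t).measurable hA)]
  rfl

/-- Scaling of the measure, on sets. -/
theorem setLIntegral_act (hI : Inv S P e) {t : ℂ} (ht : t ≠ 0) (Ψ : (Fin n → ℂ) × ℂ → ℝ≥0∞)
    (A : Set ((Fin n → ℂ) × ℂ)) :
    ∫⁻ q in act P e t ⁻¹' A, Ψ (act P e t q) ∂S.μ =
      ENNReal.ofReal ((‖t‖ ^ (2 * n * P))⁻¹) * ∫⁻ q in A, Ψ q ∂S.μ := by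
  have h := measurableEmbedding_act (n := n) (P := P) (e := e) ht
  rw [← h.lintegral_map (f := Ψ), ← h.restrict_map, map_act hI ht, Measure.restrict_smul,
    lintegral_smul_measure]
  rfl

theorem lintegral_act_unit (hI : Inv S P e) {t : ℂ} (ht : ‖t‖ = 1) (Ψ : (Fin n → ℂ) × ℂ → ℝ≥0∞) :
    ∫⁻ q, Ψ (act P e t q) ∂S.μ = ∫⁻ q, Ψ q ∂S.μ := by
  have h0 : t ≠ 0 := by
    rintro rfl
    simp at ht
  rw [lintegral_act hI h0, ht]
  simp

/-! ### One sheet near a point -/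

/-- Near each of its points `M` is one sheet. -/
theorem exists_sheet {q₀ : (Fin n → ℂ) × ℂ} (hq₀ : q₀ ∈ S.M) :
    ∃ W s, S.IsSection W s ∧ q₀.1 ∈ W ∧ s q₀.1 = q₀.2 ∧
      ∀ᶠ q in 𝓝 q₀, q ∈ S.M → q.1 ∈ W ∧ q.2 = s q.1 := by
  obtain ⟨W, σ, hW, hzW, hs, hinj, hfib, -⟩ := exists_sections hq₀.1
  have h1 := hq₀.2
  rw [hfib _ hzW] at h1
  obtain ⟨i, -, hi⟩ := Finset.mem_image.1 h1
  refine ⟨W, σ i, hs i, hzW, hi, ?_⟩
  have hc1 : ContinuousAt (fun q : (Fin n → ℂ) × ℂ => q.1) q₀ := continuousAt_fst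
  have hW' : ∀ᶠ q in 𝓝 q₀, q.1 ∈ W := hc1.eventually (hW.mem_nhds hzW)
  have hcσ : ∀ l, ContinuousAt (fun q : (Fin n → ℂ) × ℂ => σ l q.1) q₀ := fun l =>
    ContinuousAt.comp (f := Prod.fst) (x := q₀)
      ((hs l).diff.continuousOn.continuousAt (hW.mem_nhds hzW)) continuousAt_fst
  have hne : ∀ᶠ q in 𝓝 q₀, ∀ l : Fin N, l ≠ i → q.2 ≠ σ l q.1 := by
    rw [Filter.eventually_all]
    intro l
    by_cases hl : l = i
    · exact Filter.Eventually.of_forall fun z' h' => absurd hl h'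
    · have h1 : q₀.2 ≠ σ l q₀.1 := by
        rw [← hi]
        intro h2
        exact hl (hinj _ hzW h2.symm)
      filter_upwards [(continuousAt_snd.ne_iff_eventually_ne (hcσ l)).1 h1] with z' h2 _ using h2
  filter_upwards [hW', hne] with q h2 h3 hq
  refine ⟨h2, ?_⟩
  have h4 := hq.2
  rw [hfib _ h2] at h4
  obtain ⟨l, -, hl⟩ := Finset.mem_image.1 h4
  by_cases hli : l = i
  · rw [← hl, hli]
  · exact absurd hl.symm (h3 l hli)

/-- Functions continuous along the sheets are continuous on `M`. -/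
theorem continuousOn_M {X : (Fin n → ℂ) × ℂ → ℂ} (hX : S.CD 0 X) : ContinuousOn X S.M := by
  intro q₀ hq₀
  obtain ⟨W, s, hs, hz, hsz, h⟩ := exists_sheet hq₀
  have h1 : ContinuousAt (fun q : (Fin n → ℂ) × ℂ => X (q.1, s q.1)) q₀ :=
    ContinuousAt.comp (f := Prod.fst) (x := q₀) (g := fun z => X (z, s z))
      ((hX W s hs).continuousOn.continuousAt (hs.isOpen.mem_nhds hz)) continuousAt_fst
  refine (h1.continuousWithinAt (s := S.M)).congr_of_eventuallyEq ?_ ?_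
  · filter_upwards [nhdsWithin_le_nhds h, self_mem_nhdsWithin] with q h2 h3
    rw [← (h2 h3).2]
  · rw [hsz]

theorem CD0_of_continuousOn {X : (Fin n → ℂ) × ℂ → ℂ} (hX : ContinuousOn X S.M) : S.CD 0 X := by
  intro W s hs
  refine contDiffOn_zero.2 ?_
  exact hX.comp (continuousOn_id.prodMk hs.diff.continuousOn) fun z hz => hs.mem_M hz

/-- The image of a section under the action is locally on a section. -/
theorem eventually_act (hI : Inv S P e) {W : Set (Fin n → ℂ)} {s : (Fin n → ℂ) → ℂ}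
    (hs : S.IsSection W s) {z : Fin n → ℂ} (hz : z ∈ W) {t : ℂ} (ht : t ≠ 0) :
    ∃ W' s', S.IsSection W' s' ∧ t ^ P • z ∈ W' ∧
      ∀ᶠ p : (Fin n → ℂ) × ℂ in 𝓝 (z, t), p.2 ^ P • p.1 ∈ W' ∧ p.1 ∈ W ∧ p.2 ≠ 0 ∧
        act P e p.2 (p.1, s p.1) = (p.2 ^ P • p.1, s' (p.2 ^ P • p.1)) := by
  have hq₀ : act P e t (z, s z) ∈ S.M := hI t ht _ (hs.mem_M hz)
  obtain ⟨W', s', hs', hz', -, h⟩ := exists_sheet hq₀
  refine ⟨W', s', hs', hz', ?_⟩
  have hc : ContinuousAt (fun p : (Fin n → ℂ) × ℂ => act P e p.2 (p.1, s p.1)) (z, t) := by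
    have h1 : ContinuousAt (fun p : (Fin n → ℂ) × ℂ => s p.1) (z, t) :=
      ContinuousAt.comp (f := Prod.fst) (x := (z, t)) (g := s)
        (hs.diff.continuousOn.continuousAt (hs.isOpen.mem_nhds hz)) continuousAt_fst
    unfold act
    exact ((continuousAt_snd.pow P).smul continuousAt_fst).prodMk ((continuousAt_snd.pow e).mul h1)
  have h1 := hc.eventually h
  have h2 : ∀ᶠ p : (Fin n → ℂ) × ℂ in 𝓝 (z, t), p.1 ∈ W :=
    continuousAt_fst.eventually (hs.isOpen.mem_nhds hz)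
  have h3 : ∀ᶠ p : (Fin n → ℂ) × ℂ in 𝓝 (z, t), p.2 ≠ 0 :=
    (continuousAt_snd (X := Fin n → ℂ) (Y := ℂ)).eventually_ne ht
  filter_upwards [h1, h2, h3] with p h4 h5 h6
  have h7 := h4 (hI _ h6 _ (hs.mem_M h5))
  exact ⟨h7.1, h5, h6, Prod.ext rfl h7.2⟩

/-- Joint holomorphy along the orbits. -/
theorem differentiableAt_act {F : (Fin n → ℂ) × ℂ → ℂ} (hF : S.Holo F) (hI : Inv S P e)
    {W : Set (Fin n → ℂ)} {s : (Fin n → ℂ) → ℂ}
    (hs : S.IsSection W s) {z : Fin n → ℂ} (hz : z ∈ W) {t : ℂ} (ht : t ≠ 0) :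
    DifferentiableAt ℂ (fun p : (Fin n → ℂ) × ℂ => F (act P e p.2 (p.1, s p.1))) (z, t) := by
  obtain ⟨W', s', hs', hz', h⟩ := eventually_act hI hs hz ht
  have h1 : DifferentiableAt ℂ (fun z => F (z, s' z)) (t ^ P • z) :=
    (hF W' s' hs').differentiableAt (hs'.isOpen.mem_nhds hz')
  have h2 : DifferentiableAt ℂ (fun p : (Fin n → ℂ) × ℂ => p.2 ^ P • p.1) (z, t) := by
    fun_prop
  have h3 : DifferentiableAt ℂ ((fun z => F (z, s' z)) ∘
      fun p : (Fin n → ℂ) × ℂ => p.2 ^ P • p.1) (z, t) :=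
    DifferentiableAt.comp (z, t) h1 h2
  refine h3.congr_of_eventuallyEq ?_
  filter_upwards [h] with p hp
  show F (act P e p.2 (p.1, s p.1)) = F (p.2 ^ P • p.1, s' (p.2 ^ P • p.1))
  rw [hp.2.2.2]

theorem differentiableAt_orbit {F : (Fin n → ℂ) × ℂ → ℂ} (hF : S.Holo F) (hI : Inv S P e)
    {q : (Fin n → ℂ) × ℂ} (hq : q ∈ S.M) {t : ℂ} (ht : t ≠ 0) :
    DifferentiableAt ℂ (fun t : ℂ => F (act P e t q)) t := by
  obtain ⟨s, W, hs, z, hz, rfl⟩ := exists_section' hq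
  have h1 := differentiableAt_act hF hI hs hz ht
  have h2 : DifferentiableAt ℂ (fun t : ℂ => ((z, t) : (Fin n → ℂ) × ℂ)) t := by fun_prop
  exact DifferentiableAt.comp (f := fun t : ℂ => ((z, t) : (Fin n → ℂ) × ℂ))
    (g := fun p : (Fin n → ℂ) × ℂ => F (act P e p.2 (p.1, s p.1))) t h1 h2

theorem continuousOn_orbit {X : (Fin n → ℂ) × ℂ → ℂ} (hX : S.CD 0 X) (hI : Inv S P e)
    {q : (Fin n → ℂ) × ℂ} (hq : q ∈ S.M) :
    ContinuousOn (fun t : ℂ => X (act P e t q)) {0}ᶜ := by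
  refine (continuousOn_M hX).comp ?_ fun t ht => hI t ht q hq
  exact (continuous_act.comp (continuous_id.prodMk continuous_const)).continuousOn

end Vale.Agent.P271.Avg
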