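import Vale.Agent.P271.H553.Act
import Vale.Agent.P271.GLOB.Act
import Vale.Agent.P282.Bd3.B5

/-! P271 (helper553), block P2 of GLOB-B: homogeneous holomorphic functions on `M` which are `L²` over
bounded sets are elements of `K` (and `P'(y) f ∈ ℂ[z][y]`). -/

open MeasureTheory Filter Topology Set
open scoped ENNReal NNReal ComplexConjugate

namespace Vale.Agent.P271.Avg

open Vale.Agent.P282.L2 Vale.Agent.P282.L2.Sheets

section weight

variable {n N' : ℕ} {S : Sheets n N'} {N e : ℕ}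

/-- Scaling: a homogeneous function which is `L²` over bounded sets is `L²` for a polynomial
weight. -/
theorem exists_weight (hN : 0 < N) (hI : Glob.Inv S N e) {F : (Fin n → ℂ) × ℂ → ℂ}
    (hF : S.CD 0 F) (l : ℤ)
    (hh : ∀ t : ℂ, t ≠ 0 → ∀ q ∈ S.M, F (Glob.act N e t q) = t ^ l * F q)
    (hfin : ∀ R : ℝ, ∫⁻ q in {q : (Fin n → ℂ) × ℂ | ‖q.1‖ ≤ R},
      ENNReal.ofReal (‖F q‖ ^ 2) ∂S.μ < ⊤) :
    ∃ k : ℕ, ∫⁻ q, ENNReal.ofReal (‖F q‖ ^ 2 * ((1 + ‖q.1‖) ^ k)⁻¹) ∂S.μ < ⊤ := by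
  have hI' : Inv S N e := hI
  have h2 : (2 : ℂ) ≠ 0 := two_ne_zero
  set B : ℕ → Set ((Fin n → ℂ) × ℂ) := fun j => {q | ‖q.1‖ ≤ ((2 : ℝ) ^ N) ^ j} with hB
  have hBm : ∀ j, MeasurableSet (B j) := fun j =>
    measurableSet_le (by fun_prop) measurable_const
  set A : ℕ → ℝ≥0∞ := fun j => ∫⁻ q in B j, ENNReal.ofReal (‖F q‖ ^ 2) ∂S.μ with hA
  set a : ℝ := (2 : ℝ) ^ (2 * n * N) with ha
  set b : ℝ := ‖((2 : ℂ) ^ l)‖ ^ 2 with hb
  have ha0 : 0 < a := by positivity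
  have hb0 : 0 < b := by
    have : (2 : ℂ) ^ l ≠ 0 := zpow_ne_zero _ h2
    positivity
  have hstep : ∀ j, A (j + 1) = ENNReal.ofReal (a * b) * A j := by
    intro j
    have h1 := setLIntegral_act hI' h2 (fun q => ENNReal.ofReal (‖F q‖ ^ 2)) (B (j + 1))
    have hpre : act N e 2 ⁻¹' (B (j + 1)) = B j := by
      ext q
      simp only [hB, mem_preimage, mem_ofPred_eq, act, norm_smul, norm_pow, pow_succ]
      rw [show ‖(2 : ℂ)‖ = 2 by simp, mul_comm (((2 : ℝ) ^ N) ^ j)]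
      exact mul_le_mul_iff_right₀ (by positivity)
    have h3 : ∫⁻ q in B j, ENNReal.ofReal (‖F (act N e 2 q)‖ ^ 2) ∂S.μ =
        ENNReal.ofReal b * A j := by
      rw [hA, ← lintegral_const_mul' _ _ ENNReal.ofReal_ne_top]
      refine lintegral_congr_ae ?_
      filter_upwards [ae_restrict_of_ae (ae_mem_M (S := S))] with q hq
      have h4 : F (act N e 2 q) = 2 ^ l * F q := hh 2 h2 q hq
      rw [h4, norm_mul, mul_pow, ENNReal.ofReal_mul (by positivity)]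
    rw [hpre, h3] at h1
    have h5 : ENNReal.ofReal a * ENNReal.ofReal ((‖(2 : ℂ)‖ ^ (2 * n * N))⁻¹) = 1 := by
      rw [show ‖(2 : ℂ)‖ = 2 by simp, ← ENNReal.ofReal_mul ha0.le, ← ha, mul_inv_cancel₀ ha0.ne',
        ENNReal.ofReal_one]
    calc A (j + 1) = (ENNReal.ofReal a * ENNReal.ofReal ((‖(2 : ℂ)‖ ^ (2 * n * N))⁻¹)) *
          A (j + 1) := by rw [h5, one_mul]
      _ = ENNReal.ofReal a * (ENNReal.ofReal b * A j) := by rw [mul_assoc, ← h1]
      _ = ENNReal.ofReal (a * b) * A j := by rw [← mul_assoc, ← ENNReal.ofReal_mul ha0.le]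
  have hpow : ∀ j, A j = ENNReal.ofReal (a * b) ^ j * A 0 := by
    intro j
    induction j with
    | zero => simp
    | succ j ih => rw [hstep, ih, pow_succ]; ring
  obtain ⟨k, hk⟩ := pow_unbounded_of_one_lt (2 * (a * b)) (one_lt_two (α := ℝ))
  refine ⟨k, ?_⟩
  set D : ℝ := ((2 : ℝ) ^ N) ^ k with hD
  have hD0 : 0 < D := by positivity
  have hDk : 2 * (a * b) ≤ D := by
    refine hk.le.trans ?_
    refine pow_le_pow_left₀ (by norm_num) ?_ k
    calc (2 : ℝ) = 2 ^ 1 := (pow_one 2).symm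
      _ ≤ 2 ^ N := pow_le_pow_right₀ (by norm_num) hN
  have hmeas : ∀ j, AEMeasurable (fun q => ENNReal.ofReal (D * (D⁻¹) ^ j) *
      (B j).indicator (fun q => ENNReal.ofReal (‖F q‖ ^ 2)) q) S.μ := by
    intro j
    refine AEMeasurable.const_mul ?_ _
    refine AEMeasurable.indicator ?_ (hBm j)
    exact ((aestronglyMeasurable_of_CD hF).aemeasurable.norm.pow_const 2).ennreal_ofReal
  have hle : ∀ q : (Fin n → ℂ) × ℂ, ENNReal.ofReal (‖F q‖ ^ 2 * ((1 + ‖q.1‖) ^ k)⁻¹) ≤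
      ∑' j, ENNReal.ofReal (D * (D⁻¹) ^ j) *
        (B j).indicator (fun q => ENNReal.ofReal (‖F q‖ ^ 2)) q := by
    intro q
    have hex : ∃ j, q ∈ B j := by
      have h1 : (1 : ℝ) < 2 ^ N := one_lt_pow₀ (by norm_num) hN.ne'
      obtain ⟨j, hj⟩ := pow_unbounded_of_one_lt ‖q.1‖ h1
      exact ⟨j, hj.le⟩
    classical
    have hj := Nat.find_spec hex
    have hmin := fun i (hi : i < Nat.find hex) => Nat.find_min hex hi
    set j := Nat.find hex with hjdef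
    refine le_trans ?_ (ENNReal.le_tsum j)
    rw [indicator_of_mem hj, ← ENNReal.ofReal_mul (by positivity)]
    refine ENNReal.ofReal_le_ofReal ?_
    rw [mul_comm]
    refine mul_le_mul_of_nonneg_right ?_ (by positivity)
    have h1 : (1 : ℝ) ≤ 1 + ‖q.1‖ := by linarith [norm_nonneg q.1]
    rcases Nat.eq_zero_or_pos j with h0 | h0
    · rw [h0, pow_zero, mul_one]
      calc ((1 + ‖q.1‖) ^ k)⁻¹ ≤ 1 := inv_le_one_of_one_le₀ (one_le_pow₀ h1)
        _ ≤ D := one_le_pow₀ (one_le_pow₀ (by norm_num))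
    · obtain ⟨i, hi⟩ : ∃ i, j = i + 1 := ⟨j - 1, by omega⟩
      have h3 := hmin i (by omega)
      have h4 : ((2 : ℝ) ^ N) ^ i < ‖q.1‖ := not_le.1 h3
      rw [hi, pow_succ, ← mul_assoc, mul_comm, ← mul_assoc, inv_mul_cancel₀ hD0.ne', one_mul,
        inv_pow]
      refine inv_anti₀ (by positivity) ?_
      rw [hD, ← pow_mul, mul_comm k i, pow_mul]
      exact pow_le_pow_left₀ (by positivity) (by linarith) k
  refine lt_of_le_of_lt (lintegral_mono hle) ?_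
  rw [lintegral_tsum hmeas]
  have hterm : ∀ j, ∫⁻ q, ENNReal.ofReal (D * (D⁻¹) ^ j) *
      (B j).indicator (fun q => ENNReal.ofReal (‖F q‖ ^ 2)) q ∂S.μ ≤
      (ENNReal.ofReal D * A 0) * (2⁻¹ : ℝ≥0∞) ^ j := by
    intro j
    rw [lintegral_const_mul' _ _ ENNReal.ofReal_ne_top, lintegral_indicator (hBm j)]
    have h1 : ∫⁻ q in B j, ENNReal.ofReal (‖F q‖ ^ 2) ∂S.μ = A j := rfl
    rw [h1, hpow j, ENNReal.ofReal_mul hD0.le, ENNReal.ofReal_pow (inv_nonneg.2 hD0.le) j]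
    have h3 : ENNReal.ofReal D⁻¹ * ENNReal.ofReal (a * b) ≤ 2⁻¹ := by
      rw [← ENNReal.ofReal_mul (by positivity)]
      have h4 : D⁻¹ * (a * b) ≤ 2⁻¹ := by
        rw [inv_mul_le_iff₀ hD0]
        linarith
      refine (ENNReal.ofReal_le_ofReal h4).trans (le_of_eq ?_)
      rw [ENNReal.ofReal_inv_of_pos (by norm_num)]
      simp
    calc ENNReal.ofReal D * ENNReal.ofReal D⁻¹ ^ j * (ENNReal.ofReal (a * b) ^ j * A 0)
        = (ENNReal.ofReal D * A 0) * (ENNReal.ofReal D⁻¹ * ENNReal.ofReal (a * b)) ^ j := by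
          rw [mul_pow]; ring
      _ ≤ _ := by gcongr
  refine lt_of_le_of_lt (ENNReal.tsum_le_tsum hterm) ?_
  rw [ENNReal.tsum_mul_left]
  refine ENNReal.mul_lt_top (ENNReal.mul_lt_top ENNReal.ofReal_lt_top ?_) ?_
  · have h1 := hfin 1
    simpa [hA, hB] using h1
  · rw [ENNReal.tsum_geometric, ENNReal.one_sub_inv_two, inv_inv]
    exact ENNReal.ofNat_lt_top

/-- Scaling near the vertex: it is enough to control the shells. -/
theorem fin_of_shell (hn : 0 < n) (hN : 0 < N) (hI : Glob.Inv S N e) {F : (Fin n → ℂ) × ℂ → ℂ}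
    (l : ℤ) (hl : 0 < l + n * N)
    (hh : ∀ t : ℂ, t ≠ 0 → ∀ q ∈ S.M, F (Glob.act N e t q) = t ^ l * F q)
    (hfin : ∀ c R : ℝ, 0 < c → ∫⁻ q in {q : (Fin n → ℂ) × ℂ | c ≤ ‖q.1‖ ∧ ‖q.1‖ ≤ R},
      ENNReal.ofReal (‖F q‖ ^ 2) ∂S.μ < ⊤) (R : ℝ) :
    ∫⁻ q in {q : (Fin n → ℂ) × ℂ | ‖q.1‖ ≤ R}, ENNReal.ofReal (‖F q‖ ^ 2) ∂S.μ < ⊤ := by
  have hI' : Inv S N e := hI
  have h2 : (2 : ℂ) ≠ 0 := two_ne_zero
  have hnull : S.μ {q | q.1 = 0} = 0 := by
    have h1 : ∀ᵐ q ∂S.μ, q.1 ≠ 0 := by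
      rw [Sheets.ae_μ_iff]
      have : Nonempty (Fin n) := ⟨⟨0, hn⟩⟩
      have h2 : ∀ᵐ z : Fin n → ℂ, z ≠ 0 := Measure.ae_ne volume 0
      filter_upwards [ae_restrict_of_ae h2] with z hz w _ using hz
    have h3 := ae_iff.1 h1
    simpa using h3
  rcases le_or_gt R 0 with hR | hR
  · have h1 : {q : (Fin n → ℂ) × ℂ | ‖q.1‖ ≤ R} ⊆ {q | q.1 = 0} := fun q hq =>
      norm_le_zero_iff.1 (le_trans hq hR)
    have h3 : S.μ {q : (Fin n → ℂ) × ℂ | ‖q.1‖ ≤ R} = 0 := measure_mono_null h1 hnull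
    rw [setLIntegral_measure_zero _ _ h3]
    exact ENNReal.zero_lt_top
  set ρ : ℝ := (2 : ℝ) ^ N with hρ
  have hρ0 : 0 < ρ := by positivity
  have hρ1 : 1 < ρ := one_lt_pow₀ (by norm_num) hN.ne'
  set T : ℕ → Set ((Fin n → ℂ) × ℂ) := fun j =>
    {q | R * (ρ⁻¹) ^ (j + 1) ≤ ‖q.1‖ ∧ ‖q.1‖ ≤ R * (ρ⁻¹) ^ j} with hT
  set A : ℕ → ℝ≥0∞ := fun j => ∫⁻ q in T j, ENNReal.ofReal (‖F q‖ ^ 2) ∂S.μ with hA
  set a : ℝ := (2 : ℝ) ^ (2 * n * N) with ha
  set b : ℝ := ‖((2 : ℂ) ^ l)‖ ^ 2 with hb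
  have ha0 : 0 < a := by positivity
  have hb0 : 0 < b := by
    have : (2 : ℂ) ^ l ≠ 0 := zpow_ne_zero _ h2
    positivity
  have hab : 2 ≤ a * b := by
    have h3 : a * b = (2 : ℝ) ^ (2 * (l + n * N)) := by
      rw [ha, hb, norm_zpow, show ‖(2 : ℂ)‖ = 2 by simp, ← zpow_natCast (2 : ℝ) (2 * n * N),
        ← zpow_natCast ((2 : ℝ) ^ l) 2, ← zpow_mul, ← zpow_add₀ two_ne_zero]
      congr 1
      push_cast
      ring
    rw [h3]
    calc (2 : ℝ) = 2 ^ (1 : ℤ) := (zpow_one 2).symm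
      _ ≤ 2 ^ (2 * (l + n * N)) := zpow_le_zpow_right₀ (by norm_num) (by omega)
  have hstep : ∀ j, A (j + 1) ≤ 2⁻¹ * A j := by
    intro j
    have h1 := setLIntegral_act hI' h2 (fun q => ENNReal.ofReal (‖F q‖ ^ 2)) (T j)
    have hpre : act N e 2 ⁻¹' (T j) = T (j + 1) := by
      ext q
      simp only [hT, mem_preimage, mem_ofPred_eq, act, norm_smul, norm_pow]
      rw [show ‖(2 : ℂ)‖ = 2 by simp, ← hρ]
      have e1 : R * ρ⁻¹ ^ (j + 1 + 1) * ρ = R * ρ⁻¹ ^ (j + 1) := by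
        rw [pow_succ _ (j + 1)]
        field_simp
      have e2 : R * ρ⁻¹ ^ (j + 1) * ρ = R * ρ⁻¹ ^ j := by
        rw [pow_succ]
        field_simp
      constructor
      · rintro ⟨h3, h4⟩
        rw [← e1, mul_comm ρ, mul_le_mul_iff_left₀ hρ0] at h3
        rw [← e2, mul_comm ρ, mul_le_mul_iff_left₀ hρ0] at h4
        exact ⟨h3, h4⟩
      · rintro ⟨h3, h4⟩
        rw [← e1, mul_comm ρ, mul_le_mul_iff_left₀ hρ0]
        refine ⟨h3, ?_⟩
        rw [← e2, mul_le_mul_iff_left₀ hρ0]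
        exact h4
    have h3 : ∫⁻ q in T (j + 1), ENNReal.ofReal (‖F (act N e 2 q)‖ ^ 2) ∂S.μ =
        ENNReal.ofReal b * A (j + 1) := by
      rw [hA, ← lintegral_const_mul' _ _ ENNReal.ofReal_ne_top]
      refine lintegral_congr_ae ?_
      filter_upwards [ae_restrict_of_ae (ae_mem_M (S := S))] with q hq
      have h4 : F (act N e 2 q) = 2 ^ l * F q := hh 2 h2 q hq
      rw [h4, norm_mul, mul_pow, ENNReal.ofReal_mul (by positivity)]
    rw [hpre, h3] at h1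
    have h5 : ENNReal.ofReal b⁻¹ * ENNReal.ofReal b = 1 := by
      rw [← ENNReal.ofReal_mul (inv_nonneg.2 hb0.le), inv_mul_cancel₀ hb0.ne', ENNReal.ofReal_one]
    have h6 : ENNReal.ofReal b⁻¹ * ENNReal.ofReal ((‖(2 : ℂ)‖ ^ (2 * n * N))⁻¹) ≤ 2⁻¹ := by
      rw [show ‖(2 : ℂ)‖ = 2 by simp, ← ENNReal.ofReal_mul (inv_nonneg.2 hb0.le), ← ha]
      have h7 : b⁻¹ * a⁻¹ ≤ 2⁻¹ := by
        rw [← mul_inv, mul_comm]
        exact inv_anti₀ (by norm_num) hab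
      refine (ENNReal.ofReal_le_ofReal h7).trans (le_of_eq ?_)
      rw [ENNReal.ofReal_inv_of_pos (by norm_num)]
      simp
    calc A (j + 1) = (ENNReal.ofReal b⁻¹ * ENNReal.ofReal b) * A (j + 1) := by rw [h5, one_mul]
      _ = (ENNReal.ofReal b⁻¹ * ENNReal.ofReal ((‖(2 : ℂ)‖ ^ (2 * n * N))⁻¹)) * A j := by
        rw [mul_assoc, h1, ← mul_assoc]
      _ ≤ _ := by gcongr
  have hpow : ∀ j, A j ≤ A 0 * (2⁻¹ : ℝ≥0∞) ^ j := by
    intro j
    induction j with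
    | zero => simp
    | succ j ih =>
      calc A (j + 1) ≤ 2⁻¹ * A j := hstep j
        _ ≤ 2⁻¹ * (A 0 * (2⁻¹ : ℝ≥0∞) ^ j) := by gcongr
        _ = _ := by rw [pow_succ]; ring
  have hcov : {q : (Fin n → ℂ) × ℂ | ‖q.1‖ ≤ R} ⊆ {q | q.1 = 0} ∪ ⋃ j, T j := by
    intro q hq
    have hq' : ‖q.1‖ ≤ R := hq
    by_cases h0 : q.1 = 0
    · exact Or.inl h0
    right
    have hex : ∃ j : ℕ, R * (ρ⁻¹) ^ (j + 1) ≤ ‖q.1‖ := by
      have h1 : 0 < ‖q.1‖ / R := div_pos (norm_pos_iff.2 h0) hR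
      obtain ⟨j, hj⟩ := exists_pow_lt_of_lt_one h1 (inv_lt_one_of_one_lt₀ hρ1)
      refine ⟨j, ?_⟩
      have h3 : ρ⁻¹ ^ (j + 1) ≤ ρ⁻¹ ^ j :=
        pow_le_pow_of_le_one (by positivity) (inv_lt_one_of_one_lt₀ hρ1).le (Nat.le_succ j)
      have h4 : ρ⁻¹ ^ (j + 1) ≤ ‖q.1‖ / R := h3.trans hj.le
      rw [le_div_iff₀ hR] at h4
      linarith
    classical
    have hj := Nat.find_spec hex
    have hmin := fun i (hi : i < Nat.find hex) => Nat.find_min hex hi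
    set j := Nat.find hex with hjdef
    refine mem_iUnion.2 ⟨j, hj, ?_⟩
    rcases Nat.eq_zero_or_pos j with h0 | h0
    · rw [h0, pow_zero, mul_one]
      exact hq'
    · obtain ⟨i, hi⟩ : ∃ i, j = i + 1 := ⟨j - 1, by omega⟩
      have h3 := hmin i (by omega)
      rw [hi]
      exact (not_le.1 h3).le
  have hA0 : A 0 < ⊤ := by
    have h1 := hfin (R * ρ⁻¹) R (by positivity)
    simpa [hA, hT] using h1
  calc ∫⁻ q in {q : (Fin n → ℂ) × ℂ | ‖q.1‖ ≤ R}, ENNReal.ofReal (‖F q‖ ^ 2) ∂S.μ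
      ≤ ∫⁻ q in {q | q.1 = 0} ∪ ⋃ j, T j, ENNReal.ofReal (‖F q‖ ^ 2) ∂S.μ :=
        lintegral_mono_set hcov
    _ ≤ (∫⁻ q in {q | q.1 = 0}, ENNReal.ofReal (‖F q‖ ^ 2) ∂S.μ) +
        ∫⁻ q in ⋃ j, T j, ENNReal.ofReal (‖F q‖ ^ 2) ∂S.μ := lintegral_union_le _ _ _
    _ ≤ 0 + ∑' j, A j := by
        refine add_le_add (le_of_eq (setLIntegral_measure_zero _ _ hnull)) ?_
        exact lintegral_iUnion_le _ _
    _ ≤ ∑' j, A 0 * (2⁻¹ : ℝ≥0∞) ^ j := by
        rw [zero_add]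
        exact ENNReal.tsum_le_tsum hpow
    _ < ⊤ := by
        rw [ENNReal.tsum_mul_left, ENNReal.tsum_geometric, ENNReal.one_sub_inv_two, inv_inv]
        exact ENNReal.mul_lt_top hA0 ENNReal.ofNat_lt_top

end weight

section inK

variable {n N' : ℕ} {K : Type} [Field K] [Algebra ℂ K] [Algebra (Pol n) K]
  [IsScalarTower ℂ (Pol n) K] [FaithfulSMul (Pol n) K]
variable [Algebra (FractionRing (Pol n)) K] [IsScalarTower (Pol n) (FractionRing (Pol n)) K]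
  [FiniteDimensional (FractionRing (Pol n)) K]
variable {E : Prim n K} {S : Sheets n N'} {N e : ℕ}

open Vale.Agent.P282.L2.Prim

/-- Holomorphic functions on `M` of polynomial `L²` growth are elements of `K`, in the trace dual. -/
theorem exists_elt (hS : E.IsSheets S) {F : (Fin n → ℂ) × ℂ → ℂ} (hF : S.Holo F) {k : ℕ}
    (hfin : ∫⁻ q, ENNReal.ofReal (‖F q‖ ^ 2 * ((1 + ‖q.1‖) ^ k)⁻¹) ∂S.μ < ⊤) :
    ∃ f : K, E.IsReg f ∧ (∀ q ∈ S.M, E.ev f q = F q) ∧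
      ∀ b : IB n K, ∃ c : Pol n,
        tr (n := n) (f * (b : K)) = algebraMap (Pol n) (FractionRing (Pol n)) c := by
  obtain ⟨d, hd⟩ := Vale.Agent.P282.Full.exists_partials n K
  obtain ⟨L, v, C, -, hreg, htr, h⟩ := exists_dual_space hS hd k
  set I : ℝ≥0∞ := ∫⁻ q, ENNReal.ofReal (‖F q‖ ^ 2 * ((1 + ‖q.1‖) ^ k)⁻¹) ∂S.μ with hI
  obtain ⟨c, -, hc⟩ := h F (Real.sqrt I.toReal) (Real.sqrt_nonneg _)
    (aestronglyMeasurable_of_CD (hF.CD 0)) (by
      rw [Real.sq_sqrt ENNReal.toReal_nonneg, ENNReal.ofReal_toReal hfin.ne]) (by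
      intro κ hκ j
      rw [integral_mul_Db (hF.CD 1) (hκ.1.mono (by norm_num)) hκ.2]
      have h0 : ∫ q, S.Db j F q * κ q ∂S.μ = 0 := by
        rw [← integral_zero ((Fin n → ℂ) × ℂ) ℂ (μ := S.μ)]
        refine integral_congr_ae ?_
        filter_upwards [ae_mem_M (S := S)] with q hq
        rw [hF.Db hq, zero_mul]
      rw [h0, neg_zero])
  have hregf : E.IsReg (∑ l, c l • v l) := by
    refine IsReg.sum _ fun l _ => ?_
    rw [Algebra.smul_def]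
    exact (isReg_const _).mul (hreg l)
  refine ⟨∑ l, c l • v l, hregf, ?_, ?_⟩
  · -- equality a.e., hence everywhere
    have hae : ∀ᵐ q ∂S.μ, E.ev (∑ l, c l • v l) q = F q := by
      filter_upwards [hc, ae_mem_M (S := S)] with q hq hqM
      rw [hq, ev_sum hS hqM]
      · refine Finset.sum_congr rfl fun l _ => ?_
        rw [Algebra.smul_def, ev_mul hS hqM (isReg_const _) (hreg l), ev_const hS hqM]
      · intro l _
        rw [Algebra.smul_def]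
        exact (isReg_const _).mul (hreg l)
    intro q hq
    obtain ⟨s, W, hs, z, hz, rfl⟩ := exists_section' hq
    have h1 := (Sheets.ae_μ_iff (S := S)).1 hae
    have h2 : (fun z => E.ev (∑ l, c l • v l) (z, s z)) =ᵐ[volume.restrict W]
        fun z => F (z, s z) := by
      have h3 : volume.restrict W ≤ volume.restrict S.V :=
        Measure.restrict_mono hs.subset le_rfl
      have h4 : ∀ᵐ z ∂(volume.restrict W), ∀ w ∈ S.fib z,
          E.ev (∑ l, c l • v l) (z, w) = F (z, w) := h1.filter_mono (MeasureTheory.ae_mono h3)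
      filter_upwards [h4, ae_restrict_mem hs.isOpen.measurableSet] with z h5 h6
      exact h5 (s z) (hs.mem z h6)
    exact Measure.eqOn_open_of_ae_eq h2 hs.isOpen
      (((holo_ev hS hregf).CD 0 W s hs).continuousOn) ((hF.CD 0 W s hs).continuousOn) hz
  · intro b
    choose t ht using fun l => htr l b
    refine ⟨∑ l, MvPolynomial.C (c l) * t l, ?_⟩
    rw [Finset.sum_mul, dsp_tr_fsum, map_sum]
    refine Finset.sum_congr rfl fun l _ => ?_
    rw [dsp_smul (n := n), mul_assoc, dsp_tr_alg, ht, map_mul]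

/-- Elements of the trace dual are in `P'(y)⁻¹ ℂ[z][y]` (Euler). -/
theorem exists_poly_of_dual {f : K}
    (h : ∀ b : IB n K, ∃ c : Pol n,
        tr (n := n) (f * (b : K)) = algebraMap (Pol n) (FractionRing (Pol n)) c) :
    ∃ g : Polynomial (Pol n),
      Polynomial.aeval E.y (Polynomial.derivative (minpoly (Pol n) E.y)) * f =
        Polynomial.aeval E.y g := by
  obtain ⟨pb, hpb⟩ := du_pb E
  have hC : ∀ i : Fin pb.dim, pb.basis.traceDual i = duC E i := by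
    intro i
    rw [Module.Basis.traceDual_powerBasis_eq, hpb]
    unfold duC
    rw [minpolyDiv_eq_of_isIntegrallyClosed (FractionRing (Pol n)) E.integral,
      minpoly.isIntegrallyClosed_eq_field_fractions' (FractionRing (Pol n)) E.integral,
      Polynomial.derivative_map, Polynomial.aeval_map_algebraMap]
  have h1 : f = ∑ i : Fin pb.dim,
      algebraMap (FractionRing (Pol n)) K (tr (n := n) (f * E.y ^ (i : ℕ))) * duC E i := by
    have h1 := pb.basis.traceDual.sum_repr f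
    conv_lhs => rw [← h1]
    refine Finset.sum_congr rfl fun i _ => ?_
    rw [Module.Basis.traceDual_repr_apply, hC, Algebra.smul_def, Algebra.traceForm_apply,
      pb.coe_basis, hpb]
  have h2 : ∀ i : ℕ, ∃ c : Pol n,
      tr (n := n) (f * E.y ^ i) = algebraMap (Pol n) (FractionRing (Pol n)) c := by
    intro i
    have h3 := h ((⟨E.y, E.integral⟩ : IB n K) ^ i)
    simpa using h3
  choose c hc using h2
  have h3 : ∀ i : ℕ, ∃ g : Polynomial (Pol n),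
      Polynomial.aeval E.y (Polynomial.derivative (minpoly (Pol n) E.y)) * duC E i =
        Polynomial.aeval E.y g := by
    intro i
    have h4 := coeff_minpolyDiv_mem_adjoin (R := Pol n) E.y i
    rw [Algebra.adjoin_singleton_eq_range_aeval] at h4
    obtain ⟨g, hg⟩ := h4
    refine ⟨g, ?_⟩
    unfold duC
    rw [mul_div_cancel₀ _ aeval_derivative_ne_zero]
    exact hg.symm
  choose g hg using h3
  refine ⟨∑ i : Fin pb.dim, Polynomial.C (c i) * g i, ?_⟩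
  rw [map_sum]
  conv_lhs => rw [h1]
  rw [Finset.mul_sum]
  refine Finset.sum_congr rfl fun i _ => ?_
  rw [map_mul, Polynomial.aeval_C, ← hg, hc, ← IsScalarTower.algebraMap_apply]
  ring

/-- **(P2)** A homogeneous holomorphic function on `M` which is `L²` over the bounded subsets of `ℂⁿ`
is an element of `K`, and `P'(y) f ∈ ℂ[z][y]`. -/
theorem inK (hS : E.IsSheets S) (hN : 0 < N) (hI : Glob.Inv S N e)
    {F : (Fin n → ℂ) × ℂ → ℂ} (hF : S.Holo F) (l : ℤ)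
    (hh : ∀ t : ℂ, t ≠ 0 → ∀ q ∈ S.M, F (Glob.act N e t q) = t ^ l * F q)
    (hfin : ∀ R : ℝ, ∫⁻ q in {q : (Fin n → ℂ) × ℂ | ‖q.1‖ ≤ R},
      ENNReal.ofReal (‖F q‖ ^ 2) ∂S.μ < ⊤) :
    ∃ (g : Polynomial (Pol n)) (f : K), E.IsReg f ∧ (∀ q ∈ S.M, E.ev f q = F q) ∧
      Polynomial.aeval E.y (Polynomial.derivative (minpoly (Pol n) E.y)) * f =
        Polynomial.aeval E.y g := by
  obtain ⟨k, hk⟩ := exists_weight hN hI (hF.CD 0) l hh hfin
  obtain ⟨f, h1, h2, h3⟩ := exists_elt hS hF hk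
  obtain ⟨g, hg⟩ := exists_poly_of_dual h3
  exact ⟨g, f, h1, h2, hg⟩

/-- **(P2)**, with a hypothesis on shells only. -/
theorem inK_shell (hn : 0 < n) (hS : E.IsSheets S) (hN : 0 < N) (hI : Glob.Inv S N e)
    {F : (Fin n → ℂ) × ℂ → ℂ} (hF : S.Holo F) (l : ℤ) (hl : 0 < l + n * N)
    (hh : ∀ t : ℂ, t ≠ 0 → ∀ q ∈ S.M, F (Glob.act N e t q) = t ^ l * F q)
    (hfin : ∀ c R : ℝ, 0 < c → ∫⁻ q in {q : (Fin n → ℂ) × ℂ | c ≤ ‖q.1‖ ∧ ‖q.1‖ ≤ R},
      ENNReal.ofReal (‖F q‖ ^ 2) ∂S.μ < ⊤) :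
    ∃ (g : Polynomial (Pol n)) (f : K), E.IsReg f ∧ (∀ q ∈ S.M, E.ev f q = F q) ∧
      Polynomial.aeval E.y (Polynomial.derivative (minpoly (Pol n) E.y)) * f =
        Polynomial.aeval E.y g ∧
      Polynomial.aeval E.y (Polynomial.derivative (minpoly (Pol n) E.y)) ≠ 0 ∧
      ∀ b : IB n K, ∃ c : Pol n,
        tr (n := n) (f * (b : K)) = algebraMap (Pol n) (FractionRing (Pol n)) c := by
  obtain ⟨k, hk⟩ := exists_weight hN hI (hF.CD 0) l hh (fin_of_shell hn hN hI l hl hh hfin)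
  obtain ⟨f, h1, h2, h3⟩ := exists_elt hS hF hk
  obtain ⟨g, hg⟩ := exists_poly_of_dual h3
  exact ⟨g, f, h1, h2, hg, aeval_derivative_ne_zero, h3⟩

end inK

end Vale.Agent.P271.Avg
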