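import Vale.Agent.P271.H741.Chart

/-! P271 (helper553): charts and local integrability under the `ℂˣ`-action. -/

open MeasureTheory Filter Topology Metric
open scoped ENNReal NNReal

namespace Vale.Agent.P271.H741

open Vale.Agent.P271.Sch

variable {n m : ℕ} {C : GCone n} {φ : C.Pt} {t : ℂ}

theorem tact_apply (t : ℂ) (φ : C.Pt) (a : C.R) : GCone.tact t φ a = φ (sc C.A t a) := rfl

theorem tact_inv_tact (ht : t ≠ 0) (φ : C.Pt) : GCone.tact t⁻¹ (GCone.tact t φ) = φ :=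
  pact_inv C.A ht φ

theorem tact_tact_inv (ht : t ≠ 0) (φ : C.Pt) : GCone.tact t (GCone.tact t⁻¹ φ) = φ :=
  pact_inv' C.A ht φ

/-- The translate of a chart. -/
noncomputable def Chart.tact (c : Chart φ m) (ht : t ≠ 0) : Chart (GCone.tact t φ) m where
  ψ x := GCone.tact t (c.ψ x)
  ρ := c.ρ
  ρ_pos := c.ρ_pos
  zero := by rw [c.zero]
  holo a := c.holo (sc C.A t a)
  t j := sc C.A t⁻¹ (c.t j)
  coord x hx j := by
    rw [← tact_apply, tact_inv_tact ht, c.coord x hx j]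
  nhd := by
    classical
    obtain ⟨F, ε, hε, h⟩ := c.nhd
    refine ⟨F.image (sc C.A t⁻¹), ε, hε, fun χ hχ => ?_⟩
    obtain ⟨x, hx, hxe⟩ := h (GCone.tact t⁻¹ χ) fun a ha => by
      have h1 := hχ (sc C.A t⁻¹ a) (Finset.mem_image_of_mem _ ha)
      rw [← tact_apply, ← tact_apply, tact_inv_tact ht] at h1
      exact h1
    refine ⟨x, hx, ?_⟩
    rw [hxe, tact_tact_inv ht]

@[simp] theorem Chart.tact_ψ (c : Chart φ m) (ht : t ≠ 0) (x : Fin m → ℂ) :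
    (c.tact ht).ψ x = GCone.tact t (c.ψ x) := rfl

@[simp] theorem Chart.tact_ρ (c : Chart φ m) (ht : t ≠ 0) : (c.tact ht).ρ = c.ρ := rfl

@[simp] theorem Chart.tact_t (c : Chart φ m) (ht : t ≠ 0) (j : Fin m) :
    (c.tact ht).t j = sc C.A t⁻¹ (c.t j) := rfl

theorem IntAt.tact {g : C.Pt → ℝ≥0∞} (ht : t ≠ 0)
    (h : IntAt m φ (fun χ => g (GCone.tact t χ))) : IntAt m (GCone.tact t φ) g := by
  obtain ⟨c, ε, h1, h2, h3⟩ := h
  exact ⟨c.tact ht, ε, h1, h2, h3⟩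

/-- **Local integrability under the action.** -/
theorem intAt_tact_iff {g : C.Pt → ℝ≥0∞} (ht : t ≠ 0) :
    IntAt m (GCone.tact t φ) g ↔ IntAt m φ (fun χ => g (GCone.tact t χ)) := by
  refine ⟨fun h => ?_, IntAt.tact ht⟩
  have h1 : IntAt m (GCone.tact t⁻¹ (GCone.tact t φ)) (fun χ => g (GCone.tact t χ)) := by
    refine IntAt.tact (inv_ne_zero ht) ?_
    simpa only [tact_tact_inv ht] using h
  rwa [tact_inv_tact ht] at h1

theorem IntAt.const_mul {R : Type} [CommRing R] [Algebra ℂ R] {φ : R →ₐ[ℂ] ℂ}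
    {g : (R →ₐ[ℂ] ℂ) → ℝ≥0∞} {c : ℝ≥0∞} (hc : c ≠ ⊤) (h : IntAt m φ g) :
    IntAt m φ (fun χ => c * g χ) := by
  obtain ⟨k, ε, h1, h2, h3⟩ := h
  refine ⟨k, ε, h1, h2, ?_⟩
  rw [lintegral_const_mul' _ _ hc]
  exact ENNReal.mul_lt_top hc.lt_top h3

/-- Local integrability of a homogeneous function: constant along the orbits. -/
theorem intAt_tact_of_hom {g : C.Pt → ℝ≥0∞} (ht : t ≠ 0) {c : ℝ≥0∞} (hc : c ≠ ⊤) (hc0 : c ≠ 0)
    (hg : ∀ χ, g (GCone.tact t χ) = c * g χ) :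
    IntAt m (GCone.tact t φ) g ↔ IntAt m φ g := by
  rw [intAt_tact_iff ht]
  simp only [hg]
  refine ⟨fun h => ?_, fun h => h.const_mul hc⟩
  have h1 := h.const_mul (ENNReal.inv_ne_top.2 hc0)
  simpa only [← mul_assoc, ENNReal.inv_mul_cancel hc0 hc, one_mul] using h1

/-- The value of a weight under the action. -/
theorem RWeight.val_tact (w : RWeight C) (ht : t ≠ 0) (χ : C.Pt) :
    w.val (GCone.tact t χ) = ENNReal.ofReal (‖t‖ ^ (-(2 * w.deg))) * w.val χ := by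
  have ht' : 0 < ‖t‖ := norm_pos_iff.2 ht
  have h1 : ∀ a, (ENNReal.ofReal (∑ j, ‖(GCone.tact t χ) (w.g a j)‖ ^ 2)) ^ (-w.κ a) =
      ENNReal.ofReal (‖t‖ ^ (-(2 * (w.κ a * w.d a)))) *
        (ENNReal.ofReal (∑ j, ‖χ (w.g a j)‖ ^ 2)) ^ (-w.κ a) := by
    intro a
    have h2 : ∀ j, ‖(GCone.tact t χ) (w.g a j)‖ ^ 2 = (‖t‖ ^ (2 * w.d a)) * ‖χ (w.g a j)‖ ^ 2 := by
      intro j
      have h3 : (GCone.tact t χ) (w.g a j) = t ^ (w.d a) * χ (w.g a j) :=
        pact_mem C.A t χ (w.mem a j)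
      rw [h3, norm_mul, norm_pow, mul_pow, ← pow_mul, mul_comm (w.d a) 2]
    simp only [h2]
    rw [← Finset.mul_sum, ENNReal.ofReal_mul (by positivity),
      ENNReal.mul_rpow_of_ne_top ENNReal.ofReal_ne_top ENNReal.ofReal_ne_top]
    congr 1
    rw [ENNReal.ofReal_rpow_of_pos (by positivity), ← Real.rpow_natCast, ← Real.rpow_mul ht'.le]
    congr 2
    push_cast
    ring
  unfold RWeight.val
  simp only [h1]
  rw [Finset.prod_mul_distrib]
  congr 1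
  rw [← ENNReal.ofReal_prod_of_nonneg fun a _ => by positivity]
  congr 1
  rw [← Real.rpow_sum_of_pos ht']
  congr 1
  rw [RWeight.deg, Finset.mul_sum, ← Finset.sum_neg_distrib]

theorem RWeight.intAt_tact_iff (w : RWeight C) (ht : t ≠ 0) :
    IntAt m (GCone.tact t φ) w.val ↔ IntAt m φ w.val := by
  have ht' : 0 < ‖t‖ := norm_pos_iff.2 ht
  refine intAt_tact_of_hom ht (c := ENNReal.ofReal (‖t‖ ^ (-(2 * w.deg)))) ENNReal.ofReal_ne_top ?_
    (w.val_tact ht)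
  rw [Ne, ENNReal.ofReal_eq_zero, not_le]
  positivity

theorem nv_tact (ht : t ≠ 0) (h : GCone.NV φ) : GCone.NV (GCone.tact t φ) := by
  obtain ⟨k, hk, s, hs, h1⟩ := h
  refine ⟨k, hk, s, hs, ?_⟩
  rw [show (GCone.tact t φ) s = t ^ k * φ s from pact_mem C.A t φ hs]
  exact mul_ne_zero (pow_ne_zero _ ht) h1

theorem nv_tact_iff (ht : t ≠ 0) : GCone.NV (GCone.tact t φ) ↔ GCone.NV φ := by
  refine ⟨fun h => ?_, nv_tact ht⟩
  have := nv_tact (inv_ne_zero ht) h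
  rwa [tact_inv_tact ht] at this

end Vale.Agent.P271.H741
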