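import Vale.Agent.P271.H553.IntTact
import Vale.Agent.P271.Inst.GChart
import Vale.Agent.P271.Inst.ChartL

/-! P271 (helper553): local integrability of a weight times a power which is finite off the orbit. -/

open MeasureTheory Filter Topology Metric
open scoped ENNReal NNReal

namespace Vale.Agent.P271.H741

open Vale.Agent.P271.Sch Vale.Agent.P271.Inst

theorem eventually_intAt_mul {n : ℕ} {C : GCone n} {φ : C.Pt} (w : RWeight C)
    (hw : IntAt (n + 1) φ w.val) (hφ : GCone.NV φ) {r : ℕ} (t : Fin r → C.R)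
    (hsep : ∀ χ : C.Pt, GCone.NV χ → (∀ j, χ (t j) = 0) → ∃ c : ℂ, c ≠ 0 ∧ χ = GCone.tact c φ)
    (κ : ℝ) (hκ : 0 ≤ κ) :
    ∀ᶠ χ in 𝓝 φ, (∀ t : ℂ, t ≠ 0 → GCone.tact t φ ≠ χ) →
      IntAt (n + 1) χ
        (fun y => (ENNReal.ofReal (∑ j, ‖y (t j)‖ ^ 2)) ^ (-κ) * w.val y) := by
  obtain ⟨c⟩ := nonempty_chart hφ
  filter_upwards [c.eventually_intAt hw, Inst.eventually_NV hφ] with χ h1 h2 h3
  have h4 : ∃ j, χ (t j) ≠ 0 := by
    by_contra hcon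
    push Not at hcon
    obtain ⟨a, ha, hae⟩ := hsep χ h2 hcon
    exact h3 a ha hae.symm
  obtain ⟨j0, hj0⟩ := h4
  have hpos : 0 < ∑ j, ‖χ (t j)‖ ^ 2 := by
    refine Finset.sum_pos' (fun j _ => by positivity) ⟨j0, Finset.mem_univ _, ?_⟩
    have : 0 < ‖χ (t j0)‖ := norm_pos_iff.2 hj0
    positivity
  obtain ⟨c'⟩ := nonempty_chart h2
  have hne : (ENNReal.ofReal ((∑ j, ‖χ (t j)‖ ^ 2) / 2)) ≠ 0 := by
    rw [Ne, ENNReal.ofReal_eq_zero, not_le]; linarith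
  have hfin : (ENNReal.ofReal ((∑ j, ‖χ (t j)‖ ^ 2) / 2)) ^ (-κ) ≠ ⊤ := by
    rw [ENNReal.rpow_neg]
    exact ENNReal.inv_ne_top.2 (ENNReal.rpow_pos (pos_iff_ne_zero.2 hne)
      ENNReal.ofReal_ne_top).ne'
  refine c'.intAt_mono (h1.const_mul hfin) ?_
  have hcont : Continuous fun y : C.Pt => ∑ j, ‖y (t j)‖ ^ 2 := by
    refine continuous_finsetSum _ fun j _ => ?_
    exact ((continuous_ev (t j)).norm).pow 2
  have h5 : ∀ᶠ y in 𝓝 χ, (∑ j, ‖χ (t j)‖ ^ 2) / 2 < ∑ j, ‖y (t j)‖ ^ 2 :=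
    hcont.continuousAt.eventually (lt_mem_nhds (by linarith))
  filter_upwards [h5] with y hy
  gcongr ?_ * _
  rw [ENNReal.rpow_neg, ENNReal.rpow_neg, ENNReal.inv_le_inv]
  exact ENNReal.rpow_le_rpow (ENNReal.ofReal_le_ofReal hy.le) hκ

end Vale.Agent.P271.H741
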